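import Mathlib

namespace Vale.Agent.Lib.P047.helper21

/-- the gain obtained at the two interpolation nodes nearest the origin -/
noncomputable def gain (d D : ℕ) : ℝ :=
  2 * (2 * (1 - Real.sin (Real.pi / (2 * D))) ^ (2 * d)
      / (1 + (1 - Real.sin (Real.pi / (2 * D))) ^ (2 * d))
    / ((D : ℝ) * (Real.sin (Real.pi / (2 * D))) ^ 2))

lemma pow_base_mono (D₀ D : ℕ) (h2 : 2 ≤ D₀) (hD : D₀ ≤ D) :
    (1 - Real.pi / (2 * D₀)) ^ D₀ ≤ (1 - Real.pi / (2 * D)) ^ D := by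
  have hD₀' : (2 : ℝ) ≤ D₀ := by exact_mod_cast h2
  have hD' : (D₀ : ℝ) ≤ D := by exact_mod_cast hD
  have hpi := Real.pi_pos
  have hpi4 := Real.pi_lt_d2
  have hD₀pos : (0 : ℝ) < D₀ := by linarith
  have hDpos : (0 : ℝ) < D := by linarith
  have hx0 : 0 ≤ Real.pi / (2 * D) := by positivity
  have hx1 : Real.pi / (2 * D) ≤ 1 := by
    rw [div_le_one (by positivity)]
    linarith
  have hκ0 : 0 ≤ 1 - Real.pi / (2 * D₀) := by
    rw [sub_nonneg, div_le_one (by positivity)]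
    linarith
  have hp : (1 : ℝ) ≤ D / D₀ := by
    rw [le_div_iff₀ hD₀pos]; linarith
  have hb := one_add_mul_self_le_rpow_one_add (s := -(Real.pi / (2 * D))) (by linarith) hp
  have hb' : 1 - Real.pi / (2 * D₀) ≤ (1 - Real.pi / (2 * D)) ^ ((D : ℝ) / D₀) := by
    have e1 : 1 + (D : ℝ) / D₀ * (-(Real.pi / (2 * D))) = 1 - Real.pi / (2 * D₀) := by
      field_simp
      ring
    have e2 : (1 : ℝ) + -(Real.pi / (2 * D)) = 1 - Real.pi / (2 * D) := by ring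
    rw [e1, e2] at hb
    exact hb
  calc (1 - Real.pi / (2 * D₀)) ^ D₀ ≤ ((1 - Real.pi / (2 * D)) ^ ((D : ℝ) / D₀)) ^ D₀ :=
        pow_le_pow_left₀ hκ0 hb' D₀
    _ = (1 - Real.pi / (2 * D)) ^ D := by
        rw [← Real.rpow_natCast, ← Real.rpow_mul (by linarith), div_mul_cancel₀ _ hD₀pos.ne',
          Real.rpow_natCast]

lemma q_lower (D₀ D d e : ℕ) (h2 : 2 ≤ D₀) (hD : D₀ ≤ D) (hd : d ≤ D + e) :
    (1 - Real.pi / (2 * D₀)) ^ (2 * D₀ + 2 * e)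
      ≤ (1 - Real.sin (Real.pi / (2 * D))) ^ (2 * d) := by
  have hD₀' : (2 : ℝ) ≤ D₀ := by exact_mod_cast h2
  have hD' : (D₀ : ℝ) ≤ D := by exact_mod_cast hD
  have hpi := Real.pi_pos
  have hpi4 := Real.pi_lt_d2
  have hD₀pos : (0 : ℝ) < D₀ := by linarith
  have hDpos : (0 : ℝ) < D := by linarith
  have hκ0 : 0 ≤ 1 - Real.pi / (2 * D₀) := by
    rw [sub_nonneg, div_le_one (by positivity)]
    linarith
  have hx0 : 0 ≤ Real.pi / (2 * D) := by positivity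
  have hκy : 1 - Real.pi / (2 * D₀) ≤ 1 - Real.pi / (2 * D) := by
    have : Real.pi / (2 * D) ≤ Real.pi / (2 * D₀) :=
      div_le_div_of_nonneg_left hpi.le (by positivity) (by linarith)
    linarith
  have hy0 : 0 ≤ 1 - Real.pi / (2 * D) := le_trans hκ0 hκy
  have hy1 : 1 - Real.pi / (2 * D) ≤ 1 := by linarith
  have hys : 1 - Real.pi / (2 * D) ≤ 1 - Real.sin (Real.pi / (2 * D)) := by
    have := Real.sin_le hx0
    linarith
  have hm := pow_base_mono D₀ D h2 hD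
  calc (1 - Real.pi / (2 * D₀)) ^ (2 * D₀ + 2 * e)
      = ((1 - Real.pi / (2 * D₀)) ^ D₀) ^ 2 * (1 - Real.pi / (2 * D₀)) ^ (2 * e) := by
        rw [← pow_mul, ← pow_add, mul_comm D₀ 2]
    _ ≤ ((1 - Real.pi / (2 * D)) ^ D) ^ 2 * (1 - Real.pi / (2 * D)) ^ (2 * e) :=
        mul_le_mul (pow_le_pow_left₀ (pow_nonneg hκ0 _) hm 2) (pow_le_pow_left₀ hκ0 hκy _)
          (pow_nonneg hκ0 _) (pow_nonneg (pow_nonneg hy0 _) _)
    _ = (1 - Real.pi / (2 * D)) ^ (2 * D + 2 * e) := by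
        rw [← pow_mul, ← pow_add, mul_comm D 2]
    _ ≤ (1 - Real.pi / (2 * D)) ^ (2 * d) := pow_le_pow_of_le_one hy0 hy1 (by omega)
    _ ≤ (1 - Real.sin (Real.pi / (2 * D))) ^ (2 * d) := pow_le_pow_left₀ hy0 hys _

lemma gain_lower (d D : ℕ) (hD3 : 3 ≤ D) (q₀ : ℝ) (hq₀ : 0 ≤ q₀)
    (hq : q₀ ≤ (1 - Real.sin (Real.pi / (2 * D))) ^ (2 * d)) :
    8 * D / Real.pi ^ 2 * (2 * q₀ / (1 + q₀)) ≤ gain d D := by
  unfold gain
  have hD' : (3 : ℝ) ≤ D := by exact_mod_cast hD3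
  have hpi := Real.pi_pos
  have hDpos : (0 : ℝ) < D := by linarith
  have hx0 : 0 < Real.pi / (2 * D) := by positivity
  have hxpi : Real.pi / (2 * D) < Real.pi := by
    rw [div_lt_iff₀ (by positivity)]
    nlinarith
  have hs0 : 0 < Real.sin (Real.pi / (2 * D)) := Real.sin_pos_of_pos_of_lt_pi hx0 hxpi
  have hsx : Real.sin (Real.pi / (2 * D)) ≤ Real.pi / (2 * D) := Real.sin_le hx0.le
  generalize Real.sin (Real.pi / (2 * D)) = s at *
  generalize (1 - s) ^ (2 * d) = q at *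
  have hA : 2 * q₀ / (1 + q₀) ≤ 2 * q / (1 + q) := by
    rw [div_le_div_iff₀ (by linarith) (by linarith)]
    nlinarith
  have hA0 : 0 ≤ 2 * q₀ / (1 + q₀) := by positivity
  have hden : (D : ℝ) * s ^ 2 ≤ D * (Real.pi / (2 * D)) ^ 2 :=
    mul_le_mul_of_nonneg_left (pow_le_pow_left₀ hs0.le hsx 2) hDpos.le
  have hpos : 0 < (D : ℝ) * s ^ 2 := by positivity
  have e : 8 * D / Real.pi ^ 2 * (2 * q₀ / (1 + q₀))
      = 2 * (2 * q₀ / (1 + q₀) / (D * (Real.pi / (2 * D)) ^ 2)) := by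
    field_simp
    ring
  rw [e]
  have h1 : 2 * q₀ / (1 + q₀) / (D * (Real.pi / (2 * D)) ^ 2)
      ≤ 2 * q₀ / (1 + q₀) / (D * s ^ 2) :=
    div_le_div_of_nonneg_left hA0 hpos hden
  have h2 : 2 * q₀ / (1 + q₀) / (D * s ^ 2) ≤ 2 * q / (1 + q) / (D * s ^ 2) :=
    div_le_div_of_nonneg_right hA hpos.le
  linarith

lemma pi_sq_le : Real.pi ^ 2 ≤ 9.8697 := by
  have h1 := Real.pi_lt_d4
  have h2 := Real.pi_pos
  nlinarith

/-- for odd degree `D ≥ 5` the gain is at least `D / 40` -/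
lemma gain_odd (D : ℕ) (hD5 : 5 ≤ D) : (D : ℝ) / 40 ≤ gain D D := by
  have hq := q_lower 5 D D 0 (by norm_num) hD5 (by omega)
  have hk : (0.68584 : ℝ) ≤ 1 - Real.pi / (2 * ((5 : ℕ) : ℝ)) := by
    have := Real.pi_lt_d4
    push_cast
    linarith
  have hq₀ : (0.023 : ℝ) ≤ (1 - Real.pi / (2 * ((5 : ℕ) : ℝ))) ^ (2 * 5 + 2 * 0) :=
    le_trans (by norm_num) (pow_le_pow_left₀ (by norm_num) hk _)
  have hg := gain_lower D D (by omega) 0.023 (by norm_num) (le_trans hq₀ hq)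
  have hpi2 := pi_sq_le
  have hpi := Real.pi_pos
  have hDnn : (0 : ℝ) ≤ D := Nat.cast_nonneg D
  have hc : (0.0449 : ℝ) ≤ 2 * 0.023 / (1 + 0.023) := by norm_num
  have h1 : 8 * (D : ℝ) / 9.8697 ≤ 8 * D / Real.pi ^ 2 :=
    div_le_div_of_nonneg_left (by positivity) (by positivity) hpi2
  have h2 : 8 * (D : ℝ) / 9.8697 * 0.0449 ≤ 8 * D / Real.pi ^ 2 * (2 * 0.023 / (1 + 0.023)) :=
    mul_le_mul h1 hc (by norm_num) (by positivity)
  have h3 : (D : ℝ) / 40 ≤ 8 * (D : ℝ) / 9.8697 * 0.0449 := by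
    rw [div_mul_eq_mul_div, div_le_div_iff₀ (by norm_num) (by norm_num)]
    nlinarith
  linarith

/-- for odd `D ≥ 11` and degree `D + 1` the gain is at least `D / 40` -/
lemma gain_even (D : ℕ) (hD11 : 11 ≤ D) : (D : ℝ) / 40 ≤ gain (D + 1) D := by
  have hq := q_lower 11 D (D + 1) 1 (by norm_num) hD11 (by omega)
  have hk : (0.8572 : ℝ) ≤ 1 - Real.pi / (2 * ((11 : ℕ) : ℝ)) := by
    have := Real.pi_lt_d4
    push_cast
    linarith
  have hq₀ : (0.0247 : ℝ) ≤ (1 - Real.pi / (2 * ((11 : ℕ) : ℝ))) ^ (2 * 11 + 2 * 1) :=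
    le_trans (by norm_num) (pow_le_pow_left₀ (by norm_num) hk _)
  have hg := gain_lower (D + 1) D (by omega) 0.0247 (by norm_num) (le_trans hq₀ hq)
  have hpi2 := pi_sq_le
  have hpi := Real.pi_pos
  have hDnn : (0 : ℝ) ≤ D := Nat.cast_nonneg D
  have hc : (0.0482 : ℝ) ≤ 2 * 0.0247 / (1 + 0.0247) := by norm_num
  have h1 : 8 * (D : ℝ) / 9.8697 ≤ 8 * D / Real.pi ^ 2 :=
    div_le_div_of_nonneg_left (by positivity) (by positivity) hpi2
  have h2 : 8 * (D : ℝ) / 9.8697 * 0.0482 ≤ 8 * D / Real.pi ^ 2 * (2 * 0.0247 / (1 + 0.0247)) :=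
    mul_le_mul h1 hc (by norm_num) (by positivity)
  have h3 : (D : ℝ) / 40 ≤ 8 * (D : ℝ) / 9.8697 * 0.0482 := by
    rw [div_mul_eq_mul_div, div_le_div_iff₀ (by norm_num) (by norm_num)]
    nlinarith
  linarith

/-- the exact gain for degree three -/
lemma gain_three : gain 3 3 = 16 / 195 := by
  unfold gain
  have h : Real.pi / (2 * ((3 : ℕ) : ℝ)) = Real.pi / 6 := by
    push_cast
    ring
  rw [h, Real.sin_pi_div_six]
  norm_num

/-- a general numerical lower bound for the gain, from a base degree `D₀` -/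
lemma gain_base (D₀ e : ℕ) (κ q₀ A c : ℝ) (h2 : 2 ≤ D₀) (hκ0 : 0 ≤ κ)
    (hκ : κ ≤ 1 - 3.1416 / (2 * (D₀ : ℝ))) (hq₀' : 0 ≤ q₀) (hq₀ : q₀ ≤ κ ^ (2 * D₀ + 2 * e))
    (hA0 : 0 ≤ A) (hA : A ≤ 2 * q₀ / (1 + q₀)) (hc : c * 9.8697 ≤ 8 * A)
    (D d : ℕ) (hD : D₀ ≤ D) (hD3 : 3 ≤ D) (hd : d ≤ D + e) :
    c * (D : ℝ) ≤ gain d D := by
  have hq := q_lower D₀ D d e h2 hD hd
  have hD₀pos : (0 : ℝ) < D₀ := by
    have : (2 : ℝ) ≤ D₀ := by exact_mod_cast h2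
    linarith
  have hk : κ ≤ 1 - Real.pi / (2 * (D₀ : ℝ)) := by
    have h := Real.pi_lt_d4
    have : Real.pi / (2 * (D₀ : ℝ)) ≤ 3.1416 / (2 * (D₀ : ℝ)) :=
      div_le_div_of_nonneg_right h.le (by positivity)
    linarith
  have hq₁ : q₀ ≤ (1 - Real.pi / (2 * (D₀ : ℝ))) ^ (2 * D₀ + 2 * e) :=
    le_trans hq₀ (pow_le_pow_left₀ hκ0 hk _)
  have hg := gain_lower d D hD3 q₀ hq₀' (le_trans hq₁ hq)
  have hpi2 := pi_sq_le
  have hpi := Real.pi_pos
  have hDnn : (0 : ℝ) ≤ D := Nat.cast_nonneg D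
  have h1 : 8 * (D : ℝ) / 9.8697 ≤ 8 * D / Real.pi ^ 2 :=
    div_le_div_of_nonneg_left (by positivity) (by positivity) hpi2
  have h2' : 8 * (D : ℝ) / 9.8697 * A ≤ 8 * D / Real.pi ^ 2 * (2 * q₀ / (1 + q₀)) :=
    mul_le_mul h1 hA hA0 (by positivity)
  have h3 : c * (D : ℝ) ≤ 8 * (D : ℝ) / 9.8697 * A := by
    rw [div_mul_eq_mul_div, le_div_iff₀ (by norm_num)]
    nlinarith [mul_le_mul_of_nonneg_left hc hDnn]
  linarith

/-- for odd degree `D ≥ 39` the gain is at least `D / 16` -/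
lemma gain_odd16 (D : ℕ) (hD : 39 ≤ D) : (D : ℝ) / 16 ≤ gain D D := by
  have h := gain_base 39 0 0.959723 0.04049 0.0778 (1 / 16) (by norm_num) (by norm_num)
    (by norm_num) (by norm_num) (by norm_num) (by norm_num) (by norm_num) (by norm_num)
    D D hD (by omega) (by omega)
  linarith

/-- for odd `D ≥ 39` and degree `D + 1` the gain is at least `0.0582 D` -/
lemma gain_even16a (D : ℕ) (hD : 39 ≤ D) : 0.0582 * (D : ℝ) ≤ gain (D + 1) D :=
  gain_base 39 1 0.959723 0.03729 0.07189 0.0582 (by norm_num) (by norm_num)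
    (by norm_num) (by norm_num) (by norm_num) (by norm_num) (by norm_num) (by norm_num)
    D (D + 1) hD (by omega) (by omega)

/-- for odd `D ≥ 101` and degree `D + 1` the gain is at least `D / 16` -/
lemma gain_even16b (D : ℕ) (hD : 101 ≤ D) : (D : ℝ) / 16 ≤ gain (D + 1) D := by
  have h := gain_base 101 1 0.984447 0.0408 0.0784 (1 / 16) (by norm_num) (by norm_num)
    (by norm_num) (by norm_num) (by norm_num) (by norm_num) (by norm_num) (by norm_num)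
    D (D + 1) hD (by omega) (by omega)
  linarith

end Vale.Agent.Lib.P047.helper21
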