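import Mathlib

namespace Vale.Agent.Lib.P047.helper21

open Finset

variable {n : ℕ}

/-- the character of `S` on the cube `{-1,1}^n` -/
def chi (S : Finset (Fin n)) (x : Fin n → ℤˣ) : ℝ := ∏ i ∈ S, ((x i : ℤ) : ℝ)

/-- the Fourier coefficient of `f` at `S` -/
noncomputable def fc (f : (Fin n → ℤˣ) → ℝ) (S : Finset (Fin n)) : ℝ :=
  (∑ x : Fin n → ℤˣ, f x * chi S x) / 2 ^ n

lemma chi_mul (S : Finset (Fin n)) (x y : Fin n → ℤˣ) : chi S (x * y) = chi S x * chi S y := by
  unfold chi
  rw [← prod_mul_distrib]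
  apply prod_congr rfl
  intro i _
  simp

lemma chi_pm (S : Finset (Fin n)) (x : Fin n → ℤˣ) : chi S x = 1 ∨ chi S x = -1 := by
  unfold chi
  induction S using Finset.induction_on with
  | empty => left; simp
  | insert j T hj ih =>
    rw [prod_insert hj]
    rcases Int.units_eq_one_or (x j) with h | h <;> rcases ih with h' | h' <;> simp [h, h']

lemma abs_chi (S : Finset (Fin n)) (x : Fin n → ℤˣ) : |chi S x| = 1 := by
  rcases chi_pm S x with h | h <;> rw [h] <;> simp

lemma chi_one (S : Finset (Fin n)) : chi S (1 : Fin n → ℤˣ) = 1 := by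
  unfold chi; simp

lemma mul_self_eq_one (x : Fin n → ℤˣ) : x * x = 1 := by
  funext i
  rcases Int.units_eq_one_or (x i) with h | h <;> simp [h]

lemma sum_chi (z : Fin n → ℤˣ) :
    ∑ S : Finset (Fin n), chi S z = if z = 1 then (2 : ℝ) ^ n else 0 := by
  have h : ∑ S : Finset (Fin n), chi S z = ∏ i : Fin n, (1 + ((z i : ℤ) : ℝ)) := by
    rw [prod_one_add, powerset_univ]
    rfl
  rw [h]
  split_ifs with hz
  · subst hz
    simp
    norm_num
  · have : ∃ i, z i = -1 := by
      by_contra hcon
      push Not at hcon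
      apply hz
      funext i
      rcases Int.units_eq_one_or (z i) with h | h
      · exact h
      · exact absurd h (hcon i)
    obtain ⟨i, hi⟩ := this
    apply prod_eq_zero (mem_univ i)
    rw [hi]; norm_num

/-- Plancherel for two functions -/
lemma plancherel (f g : (Fin n → ℤˣ) → ℝ) :
    ∑ S : Finset (Fin n), fc f S * fc g S = (∑ x, f x * g x) / 2 ^ n := by
  have key : ∀ x y : Fin n → ℤˣ,
      ∑ S : Finset (Fin n), chi S x * chi S y = if y = x then (2 : ℝ) ^ n else 0 := by
    intro x y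
    have : ∀ S : Finset (Fin n), chi S x * chi S y = chi S (x * y) := fun S => (chi_mul S x y).symm
    rw [sum_congr rfl (fun S _ => this S), sum_chi]
    have hiff : x * y = 1 ↔ y = x := by
      constructor
      · intro h
        have h2 : x * (x * y) = x * 1 := by rw [h]
        rw [← mul_assoc, mul_self_eq_one, one_mul, mul_one] at h2
        exact h2
      · intro h; rw [h, mul_self_eq_one]
    simp only [hiff]
  have h2n : (2 : ℝ) ^ n ≠ 0 := by positivity
  have step : ∑ S : Finset (Fin n), (∑ x, f x * chi S x) * (∑ y, g y * chi S y)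
      = ∑ x, f x * g x * 2 ^ n := by
    simp_rw [sum_mul_sum]
    rw [sum_comm]
    apply sum_congr rfl
    intro x _
    rw [sum_comm]
    have : ∀ y : Fin n → ℤˣ, ∑ S : Finset (Fin n), f x * chi S x * (g y * chi S y)
        = f x * g y * (if y = x then (2 : ℝ) ^ n else 0) := by
      intro y
      rw [← key x y, mul_sum]
      apply sum_congr rfl
      intro S _
      ring
    rw [sum_congr rfl (fun y _ => this y)]
    simp
  unfold fc
  have : ∀ S : Finset (Fin n), (∑ x, f x * chi S x) / 2 ^ n * ((∑ x, g x * chi S x) / 2 ^ n)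
      = (∑ x, f x * chi S x) * (∑ y, g y * chi S y) / (2 ^ n * 2 ^ n) := by
    intro S; field_simp
  rw [sum_congr rfl (fun S _ => this S), ← sum_div, step, ← sum_mul]
  field_simp

lemma parseval (h : (Fin n → ℤˣ) → ℝ) :
    ∑ S : Finset (Fin n), (fc h S) ^ 2 = (∑ x, h x ^ 2) / 2 ^ n := by
  have := plancherel h h
  simp only [← sq] at this
  exact this

lemma fc_shift (f : (Fin n → ℤˣ) → ℝ) (t : Fin n → ℤˣ) (S : Finset (Fin n)) :
    fc (fun x => f (t * x)) S = chi S t * fc f S := by
  unfold fc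
  rw [← mul_div_assoc, mul_sum]
  congr 1
  rw [← Equiv.sum_comp (Equiv.mulLeft t) (fun x => f (t * x) * chi S x)]
  apply sum_congr rfl
  intro x _
  simp only [Equiv.coe_mulLeft]
  rw [← mul_assoc, mul_self_eq_one, one_mul, chi_mul]
  ring

lemma fc_add (f g : (Fin n → ℤˣ) → ℝ) (S : Finset (Fin n)) :
    fc (fun x => f x + g x) S = fc f S + fc g S := by
  unfold fc
  rw [← add_div, ← sum_add_distrib]
  congr 1
  apply sum_congr rfl
  intro x _; ring

lemma fc_sub (f g : (Fin n → ℤˣ) → ℝ) (S : Finset (Fin n)) :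
    fc (fun x => f x - g x) S = fc f S - fc g S := by
  unfold fc
  rw [← sub_div, ← sum_sub_distrib]
  congr 1
  apply sum_congr rfl
  intro x _; ring

lemma fc_smul (c : ℝ) (f : (Fin n → ℤˣ) → ℝ) (S : Finset (Fin n)) :
    fc (fun x => c * f x) S = c * fc f S := by
  unfold fc
  rw [← mul_div_assoc, mul_sum]
  congr 1
  apply sum_congr rfl
  intro x _; ring

/-- if `|h| ≤ h^2` pointwise (e.g. `h` integer valued), every Fourier coefficient of `h`
is at most the squared `L^2` norm -/
lemma abs_fc_le (h : (Fin n → ℤˣ) → ℝ) (hh : ∀ x, |h x| ≤ h x ^ 2) (T : Finset (Fin n)) :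
    |fc h T| ≤ ∑ S : Finset (Fin n), (fc h S) ^ 2 := by
  rw [parseval]
  unfold fc
  have h2n : (0 : ℝ) < 2 ^ n := by positivity
  rw [abs_div, abs_of_pos h2n]
  apply div_le_div_of_nonneg_right _ h2n.le
  calc |∑ x, h x * chi T x| ≤ ∑ x, |h x * chi T x| := abs_sum_le_sum_abs _ _
    _ = ∑ x, |h x| := by
        apply sum_congr rfl; intro x _; rw [abs_mul, abs_chi, mul_one]
    _ ≤ ∑ x, h x ^ 2 := sum_le_sum (fun x _ => hh x)

/-- the vector with `-1` in coordinate `i` and `1` elsewhere -/
def ev (i : Fin n) : Fin n → ℤˣ := Function.update 1 i (-1)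

lemma chi_ev (S : Finset (Fin n)) (i : Fin n) :
    chi S (ev i) = if i ∈ S then -1 else 1 := by
  unfold chi ev
  split_ifs with h
  · rw [← mul_prod_erase S _ h]
    have : ∏ j ∈ S.erase i, (((Function.update (1 : Fin n → ℤˣ) i (-1) j : ℤˣ) : ℤ) : ℝ) = 1 := by
      apply prod_eq_one
      intro j hj
      rw [Function.update_of_ne (ne_of_mem_erase hj)]
      simp
    rw [this]
    simp
  · apply prod_eq_one
    intro j hj
    have : j ≠ i := fun h' => h (h' ▸ hj)
    rw [Function.update_of_ne this]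
    simp

lemma chi_neg_one (S : Finset (Fin n)) : chi S (-1 : Fin n → ℤˣ) = (-1) ^ S.card := by
  unfold chi
  simp

end Vale.Agent.Lib.P047.helper21
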