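import Mathlib
import Vale.Agent.Lib.P047.helper21.Basic

namespace Vale.Agent.Lib.P047.helper21

open Finset

variable {n : ℕ}

lemma parseval_bool (f : (Fin n → ℤˣ) → ℝ) (hf : ∀ x, f x = 1 ∨ f x = -1) :
    ∑ S : Finset (Fin n), (fc f S) ^ 2 = 1 := by
  rw [parseval]
  have : ∀ x : Fin n → ℤˣ, f x ^ 2 = 1 := by
    intro x; rcases hf x with h | h <;> rw [h] <;> norm_num
  rw [sum_congr rfl (fun x _ => this x)]
  simp

/-- `|fhat(i)| ≤ Σ_{S ∋ i} fhat(S)^2` (the influence bound) -/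
lemma coef_le_inf (f : (Fin n → ℤˣ) → ℝ) (hf : ∀ x, f x = 1 ∨ f x = -1) (i : Fin n) :
    |fc f {i}| ≤ ∑ S : Finset (Fin n), (fc f S) ^ 2 * (if i ∈ S then 1 else 0) := by
  have hbc : ∀ S : Finset (Fin n), fc (fun x => (1 / 2 : ℝ) * (f x - f (ev i * x))) S
      = fc f S * (if i ∈ S then 1 else 0) := by
    intro S
    rw [fc_smul, fc_sub, fc_shift, chi_ev]
    split_ifs <;> ring
  have hpt : ∀ x : Fin n → ℤˣ, |(1 / 2 : ℝ) * (f x - f (ev i * x))|
      ≤ ((1 / 2 : ℝ) * (f x - f (ev i * x))) ^ 2 := by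
    intro x
    rcases hf x with h1 | h1 <;> rcases hf (ev i * x) with h2 | h2 <;> rw [h1, h2] <;> norm_num
  have h := abs_fc_le _ hpt {i}
  rw [hbc] at h
  simp only [hbc, mem_singleton, if_true, mul_one] at h
  refine h.trans (le_of_eq ?_)
  apply sum_congr rfl
  intro S _
  split_ifs <;> ring

/-- `|fhat(i)| ≤ Σ_{S ∋ i} (1 - (-1)^|S|) fhat(S)^2`, i.e. twice the odd-level influence -/
lemma coef_le_odd (f : (Fin n → ℤˣ) → ℝ) (hf : ∀ x, f x = 1 ∨ f x = -1) (i : Fin n) :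
    |fc f {i}| ≤ ∑ S : Finset (Fin n),
      (fc f S) ^ 2 * ((if i ∈ S then 1 else 0) * (1 - (-1) ^ S.card)) := by
  have hbc : ∀ S : Finset (Fin n),
      fc (fun x => (1 / 2 : ℝ) * (f x - f (ev i * x) - f (-1 * x) + f (-1 * ev i * x))) S
      = fc f S * ((if i ∈ S then 1 else 0) * (1 - (-1) ^ S.card)) := by
    intro S
    rw [fc_smul, fc_add, fc_sub, fc_sub, fc_shift, fc_shift, fc_shift, chi_mul, chi_ev,
      chi_neg_one]
    split_ifs <;> ring
  have hpt : ∀ x : Fin n → ℤˣ,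
      |(1 / 2 : ℝ) * (f x - f (ev i * x) - f (-1 * x) + f (-1 * ev i * x))|
      ≤ ((1 / 2 : ℝ) * (f x - f (ev i * x) - f (-1 * x) + f (-1 * ev i * x))) ^ 2 := by
    intro x
    rcases hf x with h1 | h1 <;> rcases hf (ev i * x) with h2 | h2 <;>
      rcases hf (-1 * x) with h3 | h3 <;> rcases hf (-1 * ev i * x) with h4 | h4 <;>
      rw [h1, h2, h3, h4] <;> norm_num
  have h := abs_fc_le _ hpt {i}
  rw [hbc] at h
  simp only [hbc, mem_singleton, if_true, card_singleton, pow_one, one_mul] at h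
  have h' : |fc f {i} * (1 - -1)| = 2 * |fc f {i}| := by
    rw [abs_mul]; norm_num; ring
  rw [h'] at h
  have hsq : ∀ S : Finset (Fin n),
      (fc f S * ((if i ∈ S then 1 else 0) * (1 - (-1) ^ S.card))) ^ 2
      = 2 * ((fc f S) ^ 2 * ((if i ∈ S then 1 else 0) * (1 - (-1) ^ S.card))) := by
    intro S
    rcases neg_one_pow_eq_or ℝ S.card with hc | hc <;> rw [hc] <;> split_ifs <;> ring
  rw [sum_congr rfl (fun S _ => hsq S), ← mul_sum] at h
  linarith

lemma sum_indicator (S : Finset (Fin n)) :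
    ∑ i : Fin n, (if i ∈ S then (1 : ℝ) else 0) = S.card := by
  rw [sum_boole]
  simp

/-- the even degree bound -/
theorem even_bound (d : ℕ) (hd : Even d) (hd2 : 2 ≤ d) (f : (Fin n → ℤˣ) → ℝ)
    (hf : ∀ x, f x = 1 ∨ f x = -1)
    (hdeg : ∀ S : Finset (Fin n), d < S.card → fc f S = 0) :
    ∑ i : Fin n, |fc f {i}| ≤ 2 * d * (d - 1) / (2 * d - 1) := by
  have hd1 : (2 : ℝ) ≤ d := by exact_mod_cast hd2
  have hpos : (0 : ℝ) < 2 * d - 1 := by linarith
  rw [le_div_iff₀ hpos]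
  have h1 : ∑ i : Fin n, |fc f {i}| ≤ ∑ S : Finset (Fin n), (fc f S) ^ 2 * S.card := by
    calc ∑ i : Fin n, |fc f {i}|
        ≤ ∑ i : Fin n, ∑ S : Finset (Fin n), (fc f S) ^ 2 * (if i ∈ S then 1 else 0) :=
          sum_le_sum (fun i _ => coef_le_inf f hf i)
      _ = ∑ S : Finset (Fin n), (fc f S) ^ 2 * S.card := by
          rw [sum_comm]
          apply sum_congr rfl
          intro S _
          rw [← mul_sum, sum_indicator]
  have h2 : ∑ i : Fin n, |fc f {i}|
      ≤ ∑ S : Finset (Fin n), (fc f S) ^ 2 * (S.card * (1 - (-1) ^ S.card)) := by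
    calc ∑ i : Fin n, |fc f {i}|
        ≤ ∑ i : Fin n, ∑ S : Finset (Fin n),
            (fc f S) ^ 2 * ((if i ∈ S then 1 else 0) * (1 - (-1) ^ S.card)) :=
          sum_le_sum (fun i _ => coef_le_odd f hf i)
      _ = ∑ S : Finset (Fin n), (fc f S) ^ 2 * (S.card * (1 - (-1) ^ S.card)) := by
          rw [sum_comm]
          apply sum_congr rfl
          intro S _
          rw [← mul_sum, ← sum_mul, sum_indicator]
  have h3 : ∀ S : Finset (Fin n),
      (2 * (d : ℝ) - 2) * ((fc f S) ^ 2 * S.card)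
        + (fc f S) ^ 2 * (S.card * (1 - (-1) ^ S.card))
      ≤ 2 * d * (d - 1) * (fc f S) ^ 2 := by
    intro S
    by_cases hS : d < S.card
    · rw [hdeg S hS]; simp
    · have hS' : S.card ≤ d := not_lt.1 hS
      have hsq : 0 ≤ (fc f S) ^ 2 := sq_nonneg _
      have hc : (S.card : ℝ) ≤ d := by exact_mod_cast hS'
      rcases Nat.even_or_odd S.card with he | ho
      · rw [he.neg_one_pow]
        have : (2 * (d : ℝ) - 2) * S.card ≤ 2 * d * (d - 1) := by nlinarith
        nlinarith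
      · rw [ho.neg_one_pow]
        have hne : S.card ≠ d := by
          rintro h
          rw [h] at ho
          exact (Nat.not_even_iff_odd.2 ho) hd
        have hlt : S.card + 1 ≤ d := by omega
        have hc' : (S.card : ℝ) + 1 ≤ d := by exact_mod_cast hlt
        have : (2 * (d : ℝ) - 2) * S.card + S.card * 2 ≤ 2 * d * (d - 1) := by nlinarith
        nlinarith
  have hsum := sum_le_sum (fun S (_ : S ∈ (univ : Finset (Finset (Fin n)))) => h3 S)
  rw [sum_add_distrib, ← mul_sum, ← mul_sum, parseval_bool f hf] at hsum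
  have hL : (0 : ℝ) ≤ 2 * d - 2 := by linarith
  nlinarith [mul_le_mul_of_nonneg_left h1 hL]

end Vale.Agent.Lib.P047.helper21
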