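import Mathlib
import Vale.Agent.Lib.P047.helper21.Even

namespace Vale.Agent.Lib.P047.helper21

open Finset

variable {n : ℕ}

lemma sum_chi_mul (x y : Fin n → ℤˣ) :
    ∑ S : Finset (Fin n), chi S x * chi S y = if y = x then (2 : ℝ) ^ n else 0 := by
  have : ∀ S : Finset (Fin n), chi S x * chi S y = chi S (x * y) := fun S => (chi_mul S x y).symm
  rw [sum_congr rfl (fun S _ => this S), sum_chi]
  have hiff : x * y = 1 ↔ y = x := by
    constructor
    · intro h
      have h2 : x * (x * y) = x * 1 := by rw [h]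
      rw [← mul_assoc, mul_self_eq_one, one_mul, mul_one] at h2
      exact h2
    · intro h; rw [h, mul_self_eq_one]
  simp only [hiff]

/-- Fourier inversion -/
lemma inversion (f : (Fin n → ℤˣ) → ℝ) (x : Fin n → ℤˣ) :
    f x = ∑ T : Finset (Fin n), fc f T * chi T x := by
  have h2n : (2 : ℝ) ^ n ≠ 0 := by positivity
  unfold fc
  have : ∀ T : Finset (Fin n), (∑ y, f y * chi T y) / 2 ^ n * chi T x
      = (∑ y, f y * (chi T x * chi T y)) / 2 ^ n := by
    intro T
    rw [div_mul_eq_mul_div, sum_mul]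
    congr 1
    apply sum_congr rfl
    intro y _; ring
  rw [sum_congr rfl (fun T _ => this T), ← sum_div, sum_comm]
  have h3 : ∀ y : Fin n → ℤˣ, ∑ T : Finset (Fin n), f y * (chi T x * chi T y)
      = f y * (if y = x then (2 : ℝ) ^ n else 0) := by
    intro y
    rw [← sum_chi_mul x y, mul_sum]
  rw [sum_congr rfl (fun y _ => h3 y)]
  simp

/-- orthogonality of characters -/
lemma chi_orth (A B : Finset (Fin n)) :
    ∑ x : Fin n → ℤˣ, chi A x * chi B x = if A = B then (2 : ℝ) ^ n else 0 := by
  split_ifs with h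
  · subst h
    have : ∀ x : Fin n → ℤˣ, chi A x * chi A x = 1 := by
      intro x; rcases chi_pm A x with h | h <;> rw [h] <;> norm_num
    rw [sum_congr rfl (fun x _ => this x)]
    simp
  · have hex : ∃ i, (i ∈ A ∧ i ∉ B) ∨ (i ∉ A ∧ i ∈ B) := by
      by_contra hcon
      push Not at hcon
      apply h
      ext i
      constructor
      · intro hi; exact (hcon i).1 hi
      · intro hi; by_contra ha; exact (hcon i).2 ha hi
    obtain ⟨i, hi⟩ := hex
    have hflip : ∀ x : Fin n → ℤˣ, chi A (ev i * x) * chi B (ev i * x)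
        = -(chi A x * chi B x) := by
      intro x
      rw [chi_mul, chi_mul, chi_ev, chi_ev]
      rcases hi with ⟨h1, h2⟩ | ⟨h1, h2⟩
      · rw [if_pos h1, if_neg h2]; ring
      · rw [if_neg h1, if_pos h2]; ring
    have hsum := Equiv.sum_comp (Equiv.mulLeft (ev i)) (fun x => chi A x * chi B x)
    simp only [Equiv.coe_mulLeft] at hsum
    rw [sum_congr rfl (fun x _ => hflip x), sum_neg_distrib] at hsum
    linarith

/-- the restriction map: coordinates in `J` are set to `1` -/
def res (J : Finset (Fin n)) (x : Fin n → ℤˣ) : Fin n → ℤˣ := fun i => if i ∈ J then 1 else x i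

lemma chi_res (T J : Finset (Fin n)) (x : Fin n → ℤˣ) : chi T (res J x) = chi (T \ J) x := by
  unfold chi res
  rw [← prod_subset (sdiff_subset : T \ J ⊆ T)
    (f := fun i => (((if i ∈ J then 1 else x i : ℤˣ) : ℤ) : ℝ))]
  · apply prod_congr rfl
    intro i hi
    simp [(mem_sdiff.1 hi).2]
  · intro i hi hni
    have : i ∈ J := by
      by_contra hJ
      exact hni (mem_sdiff.2 ⟨hi, hJ⟩)
    simp [this]

lemma fc_res (f : (Fin n → ℤˣ) → ℝ) (J S : Finset (Fin n)) :
    fc (fun x => f (res J x)) S = ∑ T : Finset (Fin n), if T \ J = S then fc f T else 0 := by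
  have h2n : (2 : ℝ) ^ n ≠ 0 := by positivity
  unfold fc
  have h1 : ∀ x : Fin n → ℤˣ, f (res J x) * chi S x
      = ∑ T : Finset (Fin n), fc f T * (chi (T \ J) x * chi S x) := by
    intro x
    rw [inversion f (res J x), sum_mul]
    apply sum_congr rfl
    intro T _
    rw [chi_res]; ring
  rw [sum_congr rfl (fun x _ => h1 x), sum_comm]
  have h2 : ∀ T : Finset (Fin n), ∑ x : Fin n → ℤˣ, fc f T * (chi (T \ J) x * chi S x)
      = fc f T * (if T \ J = S then (2 : ℝ) ^ n else 0) := by
    intro T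
    rw [← mul_sum, chi_orth]
  rw [sum_congr rfl (fun T _ => h2 T), sum_div]
  apply sum_congr rfl
  intro T _
  unfold fc
  split_ifs with h
  · field_simp
  · simp

lemma res_bool (f : (Fin n → ℤˣ) → ℝ) (hf : ∀ x, f x = 1 ∨ f x = -1) (J : Finset (Fin n)) :
    ∀ x, (fun x => f (res J x)) x = 1 ∨ (fun x => f (res J x)) x = -1 := fun x => hf (res J x)

lemma res_deg (d : ℕ) (f : (Fin n → ℤˣ) → ℝ)
    (hdeg : ∀ S : Finset (Fin n), d < S.card → fc f S = 0) (J S : Finset (Fin n))
    (hS : d < S.card) : fc (fun x => f (res J x)) S = 0 := by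
  rw [fc_res]
  apply sum_eq_zero
  intro T _
  split_ifs with h
  · apply hdeg
    have : S.card ≤ T.card := by
      rw [← h]; exact card_le_card sdiff_subset
    omega
  · rfl

/-- the unbiased level-one inequality with the mean correction -/
lemma level1_le (d : ℕ) (h : (Fin n → ℤˣ) → ℝ) (hb : ∀ x, h x = 1 ∨ h x = -1)
    (hdeg : ∀ S : Finset (Fin n), d < S.card → fc h S = 0) :
    ∑ i : Fin n, |fc h {i}| ≤ d * (1 - (fc h ∅) ^ 2) := by
  have h1 : ∑ i : Fin n, |fc h {i}| ≤ ∑ S : Finset (Fin n), (fc h S) ^ 2 * S.card := by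
    calc ∑ i : Fin n, |fc h {i}|
        ≤ ∑ i : Fin n, ∑ S : Finset (Fin n), (fc h S) ^ 2 * (if i ∈ S then 1 else 0) :=
          sum_le_sum (fun i _ => coef_le_inf h hb i)
      _ = ∑ S : Finset (Fin n), (fc h S) ^ 2 * S.card := by
          rw [sum_comm]
          apply sum_congr rfl
          intro S _
          rw [← mul_sum, sum_indicator]
  have h2 : ∀ S : Finset (Fin n), (fc h S) ^ 2 * S.card
      ≤ d * ((fc h S) ^ 2 - if S = ∅ then (fc h ∅) ^ 2 else 0) := by
    intro S
    by_cases hS : d < S.card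
    · rw [hdeg S hS]
      have : S ≠ ∅ := by
        rintro rfl; simp at hS
      simp [this]
    · have hS' : (S.card : ℝ) ≤ d := by exact_mod_cast not_lt.1 hS
      have hsq : 0 ≤ (fc h S) ^ 2 := sq_nonneg _
      split_ifs with he
      · subst he; simp
      · rw [sub_zero]; nlinarith
  have h3 := sum_le_sum (fun S (_ : S ∈ (univ : Finset (Finset (Fin n)))) => h2 S)
  rw [← mul_sum, sum_sub_distrib, parseval_bool h hb] at h3
  simp only [sum_ite_eq', mem_univ, if_true] at h3
  linarith

end Vale.Agent.Lib.P047.helper21
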