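import Mathlib
import Vale.Agent.Lib.P047.helper21.Bias

namespace Vale.Agent.Lib.P047.helper21

open Finset

variable {n : ℕ}

/-- the product weight of the random set `J` (each coordinate in `J` with probability `ρ`) -/
noncomputable def wt (ρ : ℝ) (J : Finset (Fin n)) : ℝ := ρ ^ J.card * (1 - ρ) ^ (n - J.card)

lemma sum_prod_weights (a b : Fin n → ℝ) :
    ∑ J : Finset (Fin n), (∏ i ∈ J, a i) * ∏ i ∈ univ \ J, b i = ∏ i : Fin n, (a i + b i) := by
  rw [prod_add, powerset_univ]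

lemma wt_nonneg {ρ : ℝ} (h0 : 0 ≤ ρ) (h1 : ρ ≤ 1) (J : Finset (Fin n)) : 0 ≤ wt ρ J := by
  unfold wt
  have : 0 ≤ 1 - ρ := by linarith
  positivity

lemma wt_subset (ρ : ℝ) (T : Finset (Fin n)) :
    ∑ J : Finset (Fin n), (if T ⊆ J then wt ρ J else 0) = ρ ^ T.card := by
  have h := sum_prod_weights (n := n) (fun _ => ρ) (fun i => if i ∈ T then 0 else 1 - ρ)
  have hR : ∏ i : Fin n, (ρ + if i ∈ T then 0 else 1 - ρ) = ρ ^ T.card := by
    have : ∀ i : Fin n, (ρ + if i ∈ T then 0 else 1 - ρ) = if i ∈ T then ρ else 1 := by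
      intro i; split_ifs <;> ring
    rw [prod_congr rfl (fun i _ => this i), prod_ite_mem, univ_inter, prod_const]
  rw [hR] at h
  rw [← h]
  apply sum_congr rfl
  intro J _
  split_ifs with hTJ
  · unfold wt
    rw [prod_const]
    congr 1
    have : ∀ i ∈ univ \ J, (if i ∈ T then 0 else 1 - ρ) = 1 - ρ := by
      intro i hi
      have : i ∉ T := fun hT => (mem_sdiff.1 hi).2 (hTJ hT)
      simp [this]
    rw [prod_congr rfl this, prod_const, card_univ_sdiff, Fintype.card_fin]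
  · obtain ⟨i, hiT, hiJ⟩ := not_subset.1 hTJ
    symm
    apply mul_eq_zero_of_right
    apply prod_eq_zero (mem_sdiff.2 ⟨mem_univ i, hiJ⟩)
    simp [hiT]

lemma wt_sum (ρ : ℝ) : ∑ J : Finset (Fin n), wt ρ J = 1 := by
  have := wt_subset (n := n) ρ ∅
  simpa using this

lemma wt_single (ρ : ℝ) (T : Finset (Fin n)) (i : Fin n) (hi : i ∈ T) :
    ∑ J : Finset (Fin n), (if i ∉ J ∧ T.erase i ⊆ J then wt ρ J else 0)
      = (1 - ρ) * ρ ^ (T.card - 1) := by
  have h := sum_prod_weights (n := n) (fun j => if j = i then 0 else ρ)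
    (fun j => if j ∈ T.erase i then 0 else 1 - ρ)
  have hR : ∏ j : Fin n, ((if j = i then 0 else ρ) + if j ∈ T.erase i then 0 else 1 - ρ)
      = (1 - ρ) * ρ ^ (T.card - 1) := by
    have : ∀ j : Fin n, ((if j = i then 0 else ρ) + if j ∈ T.erase i then 0 else 1 - ρ)
        = (if j = i then 1 - ρ else 1) * (if j ∈ T.erase i then ρ else 1) := by
      intro j
      by_cases hji : j = i
      · subst hji
        simp
      · by_cases hjT : j ∈ T.erase j
        · simp at hjT
        · by_cases hjT' : j ∈ T.erase i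
          · simp [hji, hjT']
          · simp [hji, hjT']
    rw [prod_congr rfl (fun j _ => this j), prod_mul_distrib, prod_ite_eq', prod_ite_mem,
      univ_inter, prod_const, card_erase_of_mem hi]
    simp
  rw [hR] at h
  rw [← h]
  apply sum_congr rfl
  intro J _
  split_ifs with hc
  · obtain ⟨hiJ, hTJ⟩ := hc
    unfold wt
    have h1 : ∏ j ∈ J, (if j = i then 0 else ρ) = ρ ^ J.card := by
      have : ∀ j ∈ J, (if j = i then 0 else ρ) = ρ := by
        intro j hj
        have : j ≠ i := fun h' => hiJ (h' ▸ hj)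
        simp [this]
      rw [prod_congr rfl this, prod_const]
    have h2 : ∏ j ∈ univ \ J, (if j ∈ T.erase i then 0 else 1 - ρ) = (1 - ρ) ^ (n - J.card) := by
      have : ∀ j ∈ univ \ J, (if j ∈ T.erase i then 0 else 1 - ρ) = 1 - ρ := by
        intro j hj
        have : j ∉ T.erase i := fun hT => (mem_sdiff.1 hj).2 (hTJ hT)
        simp [this]
      rw [prod_congr rfl this, prod_const, card_univ_sdiff, Fintype.card_fin]
    rw [h1, h2]
  · symm
    by_cases hiJ : i ∈ J
    · apply mul_eq_zero_of_left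
      apply prod_eq_zero hiJ
      simp
    · have hTJ : ¬ T.erase i ⊆ J := fun h' => hc ⟨hiJ, h'⟩
      obtain ⟨j, hjT, hjJ⟩ := not_subset.1 hTJ
      apply mul_eq_zero_of_right
      apply prod_eq_zero (mem_sdiff.2 ⟨mem_univ j, hjJ⟩)
      simp [hjT]

lemma sdiff_eq_singleton_iff (T J : Finset (Fin n)) (i : Fin n) :
    T \ J = {i} ↔ i ∈ T ∧ i ∉ J ∧ T.erase i ⊆ J := by
  constructor
  · intro h
    have hi : i ∈ T \ J := by rw [h]; exact mem_singleton_self i
    refine ⟨(mem_sdiff.1 hi).1, (mem_sdiff.1 hi).2, ?_⟩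
    intro j hj
    by_contra hjJ
    have : j ∈ T \ J := mem_sdiff.2 ⟨mem_of_mem_erase hj, hjJ⟩
    rw [h, mem_singleton] at this
    exact ne_of_mem_erase hj this
  · rintro ⟨hiT, hiJ, hsub⟩
    ext j
    rw [mem_sdiff, mem_singleton]
    constructor
    · rintro ⟨hjT, hjJ⟩
      by_contra hne
      exact hjJ (hsub (mem_erase.2 ⟨hne, hjT⟩))
    · rintro rfl
      exact ⟨hiT, hiJ⟩

/-- the mean of the random restriction is the bias polynomial -/
lemma avg_mean (f : (Fin n → ℤˣ) → ℝ) (ρ : ℝ) :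
    ∑ J : Finset (Fin n), wt ρ J * fc (fun x => f (res J x)) ∅
      = ∑ T : Finset (Fin n), fc f T * ρ ^ T.card := by
  have h1 : ∀ J : Finset (Fin n), wt ρ J * fc (fun x => f (res J x)) ∅
      = ∑ T : Finset (Fin n), fc f T * (if T ⊆ J then wt ρ J else 0) := by
    intro J
    rw [fc_res, mul_sum]
    apply sum_congr rfl
    intro T _
    simp only [sdiff_eq_empty_iff_subset]
    split_ifs <;> ring
  rw [sum_congr rfl (fun J _ => h1 J), sum_comm]
  apply sum_congr rfl
  intro T _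
  rw [← mul_sum, wt_subset]

/-- the level-one sum of the random restriction is `(1-ρ)` times the derivative -/
lemma avg_level1 (f : (Fin n → ℤˣ) → ℝ) (ρ : ℝ) :
    ∑ J : Finset (Fin n), wt ρ J * ∑ i : Fin n, fc (fun x => f (res J x)) {i}
      = (1 - ρ) * ∑ T : Finset (Fin n), fc f T * (T.card * ρ ^ (T.card - 1)) := by
  have h1 : ∀ J : Finset (Fin n), wt ρ J * ∑ i : Fin n, fc (fun x => f (res J x)) {i}
      = ∑ T : Finset (Fin n), ∑ i : Fin n,
          fc f T * (if i ∈ T then (if i ∉ J ∧ T.erase i ⊆ J then wt ρ J else 0) else 0) := by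
    intro J
    rw [mul_sum, sum_comm]
    apply sum_congr rfl
    intro i _
    rw [fc_res, mul_sum]
    apply sum_congr rfl
    intro T _
    simp only [sdiff_eq_singleton_iff]
    by_cases hiT : i ∈ T
    · simp only [hiT, true_and, if_true]
      split_ifs <;> ring
    · simp [hiT]
  rw [sum_congr rfl (fun J _ => h1 J), sum_comm, mul_sum]
  apply sum_congr rfl
  intro T _
  rw [sum_comm]
  have h2 : ∀ i : Fin n, ∑ J : Finset (Fin n),
      fc f T * (if i ∈ T then (if i ∉ J ∧ T.erase i ⊆ J then wt ρ J else 0) else 0)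
      = fc f T * ((if i ∈ T then 1 else 0) * ((1 - ρ) * ρ ^ (T.card - 1))) := by
    intro i
    rw [← mul_sum]
    congr 1
    by_cases hiT : i ∈ T
    · simp only [hiT, if_true, one_mul]
      exact wt_single ρ T i hiT
    · simp [hiT]
  rw [sum_congr rfl (fun i _ => h2 i), ← mul_sum, ← sum_mul, sum_indicator]
  ring

/-- the biased level-one inequality: `(1-ρ) g'(ρ) ≤ d (1 - g(ρ)^2)` for the bias
polynomial `g(ρ) = Σ_T fhat(T) ρ^|T|` of a Boolean function of degree at most `d` -/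
theorem biased_ineq (d : ℕ) (f : (Fin n → ℤˣ) → ℝ) (hf : ∀ x, f x = 1 ∨ f x = -1)
    (hdeg : ∀ S : Finset (Fin n), d < S.card → fc f S = 0) (ρ : ℝ) (h0 : 0 ≤ ρ) (h1 : ρ ≤ 1) :
    (1 - ρ) * ∑ T : Finset (Fin n), fc f T * (T.card * ρ ^ (T.card - 1))
      ≤ d * (1 - (∑ T : Finset (Fin n), fc f T * ρ ^ T.card) ^ 2) := by
  rw [← avg_level1, ← avg_mean]
  set a : Finset (Fin n) → ℝ := fun J => fc (fun x => f (res J x)) ∅ with ha
  have hJ : ∀ J : Finset (Fin n), wt ρ J * ∑ i : Fin n, fc (fun x => f (res J x)) {i}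
      ≤ wt ρ J * (d * (1 - (a J) ^ 2)) := by
    intro J
    apply mul_le_mul_of_nonneg_left _ (wt_nonneg h0 h1 J)
    calc ∑ i : Fin n, fc (fun x => f (res J x)) {i}
        ≤ ∑ i : Fin n, |fc (fun x => f (res J x)) {i}| := sum_le_sum (fun i _ => le_abs_self _)
      _ ≤ d * (1 - (a J) ^ 2) :=
          level1_le d _ (res_bool f hf J) (fun S hS => res_deg d f hdeg J S hS)
  have hsum := sum_le_sum (fun J (_ : J ∈ (univ : Finset (Finset (Fin n)))) => hJ J)
  have hjensen : (∑ J : Finset (Fin n), wt ρ J * a J) ^ 2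
      ≤ ∑ J : Finset (Fin n), wt ρ J * (a J) ^ 2 := by
    set m := ∑ J : Finset (Fin n), wt ρ J * a J with hm
    have hnn : 0 ≤ ∑ J : Finset (Fin n), wt ρ J * (a J - m) ^ 2 :=
      sum_nonneg (fun J _ => mul_nonneg (wt_nonneg h0 h1 J) (sq_nonneg _))
    have hexp : ∑ J : Finset (Fin n), wt ρ J * (a J - m) ^ 2
        = ∑ J : Finset (Fin n), wt ρ J * (a J) ^ 2 - 2 * m * ∑ J : Finset (Fin n), wt ρ J * a J
          + m ^ 2 * ∑ J : Finset (Fin n), wt ρ J := by
      have hpt : ∀ J : Finset (Fin n), wt ρ J * (a J - m) ^ 2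
          = wt ρ J * (a J) ^ 2 - 2 * m * (wt ρ J * a J) + m ^ 2 * wt ρ J := by
        intro J; ring
      rw [sum_congr rfl (fun J _ => hpt J), sum_add_distrib, sum_sub_distrib, ← mul_sum,
        ← mul_sum]
    rw [hexp, wt_sum, ← hm] at hnn
    nlinarith
  have hd : (0 : ℝ) ≤ d := Nat.cast_nonneg d
  have hrw : ∑ J : Finset (Fin n), wt ρ J * (d * (1 - (a J) ^ 2))
      = d * (1 - ∑ J : Finset (Fin n), wt ρ J * (a J) ^ 2) := by
    have : ∀ J : Finset (Fin n), wt ρ J * (d * (1 - (a J) ^ 2))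
        = d * wt ρ J - d * (wt ρ J * (a J) ^ 2) := by intro J; ring
    rw [sum_congr rfl (fun J _ => this J), sum_sub_distrib, ← mul_sum, ← mul_sum, wt_sum]
    ring
  rw [hrw] at hsum
  have := mul_le_mul_of_nonneg_left hjensen hd
  linarith

end Vale.Agent.Lib.P047.helper21
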