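import Mathlib
import Vale.Agent.Lib.P047.helper21.Avg

namespace Vale.Agent.Lib.P047.helper21

open Finset

variable {n : ℕ}

/-- the odd part of the bias polynomial of `f` -/
noncomputable def wodd (f : (Fin n → ℤˣ) → ℝ) (ρ : ℝ) : ℝ :=
  ∑ T : Finset (Fin n), if Odd T.card then fc f T * ρ ^ T.card else 0

/-- the derivative of the odd part of the bias polynomial of `f` -/
noncomputable def wodd' (f : (Fin n → ℤˣ) → ℝ) (ρ : ℝ) : ℝ :=
  ∑ T : Finset (Fin n), if Odd T.card then fc f T * (T.card * ρ ^ (T.card - 1)) else 0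

lemma wodd_hasDerivAt (f : (Fin n → ℤˣ) → ℝ) (ρ : ℝ) :
    HasDerivAt (wodd f) (wodd' f ρ) ρ := by
  have h : ∀ T ∈ (univ : Finset (Finset (Fin n))),
      HasDerivAt (fun ρ : ℝ => if Odd T.card then fc f T * ρ ^ T.card else 0)
        (if Odd T.card then fc f T * (T.card * ρ ^ (T.card - 1)) else 0) ρ := by
    intro T _
    split_ifs with hT
    · exact (hasDerivAt_pow T.card ρ).const_mul (fc f T)
    · exact hasDerivAt_const ρ 0
  have := HasDerivAt.fun_sum h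
  exact this

lemma wodd_zero (f : (Fin n → ℤˣ) → ℝ) : wodd f 0 = 0 := by
  unfold wodd
  apply sum_eq_zero
  intro T _
  split_ifs with hT
  · have : T.card ≠ 0 := by
      intro h
      rw [h] at hT
      exact absurd hT (by decide)
    rw [zero_pow this, mul_zero]
  · rfl

lemma fc_refl (f : (Fin n → ℤˣ) → ℝ) (T : Finset (Fin n)) :
    fc (fun x => -1 * f (-1 * x)) T = -((-1) ^ T.card * fc f T) := by
  rw [fc_smul (-1) (fun x => f (-1 * x)) T, fc_shift f (-1) T, chi_neg_one]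
  ring

lemma wodd_ineq_aux (d : ℕ) (f : (Fin n → ℤˣ) → ℝ) (hf : ∀ x, f x = 1 ∨ f x = -1)
    (hdeg : ∀ S : Finset (Fin n), d < S.card → fc f S = 0) (ρ : ℝ) (h0 : 0 ≤ ρ) (h1 : ρ ≤ 1) :
    (1 - ρ) * wodd' f ρ ≤ d * (1 - (wodd f ρ) ^ 2) := by
  have hb2 : ∀ x : Fin n → ℤˣ, (fun x => -1 * f (-1 * x)) x = 1
      ∨ (fun x => -1 * f (-1 * x)) x = -1 := by
    intro x
    rcases hf (-1 * x) with h | h
    · right; show -1 * f (-1 * x) = -1; rw [h]; norm_num
    · left; show -1 * f (-1 * x) = 1; rw [h]; norm_num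
  have hd2 : ∀ S : Finset (Fin n), d < S.card → fc (fun x => -1 * f (-1 * x)) S = 0 := by
    intro S hS
    rw [fc_refl, hdeg S hS]
    simp
  have e1 := biased_ineq d f hf hdeg ρ h0 h1
  have e2 := biased_ineq d (fun x => -1 * f (-1 * x)) hb2 hd2 ρ h0 h1
  have hw : wodd f ρ = ((∑ T : Finset (Fin n), fc f T * ρ ^ T.card)
      + (∑ T : Finset (Fin n), fc (fun x => -1 * f (-1 * x)) T * ρ ^ T.card)) / 2 := by
    unfold wodd
    rw [← sum_add_distrib, sum_div]
    apply sum_congr rfl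
    intro T _
    rw [fc_refl]
    split_ifs with hT
    · rw [Odd.neg_one_pow hT]; ring
    · rw [Even.neg_one_pow (Nat.not_odd_iff_even.mp hT)]; ring
  have hw' : wodd' f ρ = ((∑ T : Finset (Fin n), fc f T * (T.card * ρ ^ (T.card - 1)))
      + (∑ T : Finset (Fin n),
          fc (fun x => -1 * f (-1 * x)) T * (T.card * ρ ^ (T.card - 1)))) / 2 := by
    unfold wodd'
    rw [← sum_add_distrib, sum_div]
    apply sum_congr rfl
    intro T _
    rw [fc_refl]
    split_ifs with hT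
    · rw [Odd.neg_one_pow hT]; ring
    · rw [Even.neg_one_pow (Nat.not_odd_iff_even.mp hT)]; ring
  have hd : (0 : ℝ) ≤ d := Nat.cast_nonneg d
  rw [hw, hw']
  generalize (∑ T : Finset (Fin n), fc f T * ρ ^ T.card) = A at *
  generalize (∑ T : Finset (Fin n), fc (fun x => -1 * f (-1 * x)) T * ρ ^ T.card) = B at *
  generalize (∑ T : Finset (Fin n), fc f T * (T.card * ρ ^ (T.card - 1))) = A' at *
  generalize (∑ T : Finset (Fin n),
    fc (fun x => -1 * f (-1 * x)) T * (T.card * ρ ^ (T.card - 1))) = B' at *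
  nlinarith [mul_nonneg hd (sq_nonneg (A - B))]

lemma wodd_neg (f : (Fin n → ℤˣ) → ℝ) (ρ : ℝ) :
    wodd (fun x => -1 * f x) ρ = - wodd f ρ := by
  unfold wodd
  rw [← sum_neg_distrib]
  apply sum_congr rfl
  intro T _
  rw [fc_smul]
  split_ifs <;> ring

lemma wodd'_neg (f : (Fin n → ℤˣ) → ℝ) (ρ : ℝ) :
    wodd' (fun x => -1 * f x) ρ = - wodd' f ρ := by
  unfold wodd'
  rw [← sum_neg_distrib]
  apply sum_congr rfl
  intro T _
  rw [fc_smul]
  split_ifs <;> ring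

/-- the differential inequality for the odd part `w` of the bias polynomial of a Boolean
function of degree at most `d`: `(1-ρ) |w'(ρ)| ≤ d (1 - w(ρ)^2)` on `[0,1]` -/
theorem wodd_ineq (d : ℕ) (f : (Fin n → ℤˣ) → ℝ) (hf : ∀ x, f x = 1 ∨ f x = -1)
    (hdeg : ∀ S : Finset (Fin n), d < S.card → fc f S = 0) (ρ : ℝ) (h0 : 0 ≤ ρ) (h1 : ρ ≤ 1) :
    (1 - ρ) * |wodd' f ρ| ≤ d * (1 - (wodd f ρ) ^ 2) := by
  have e1 := wodd_ineq_aux d f hf hdeg ρ h0 h1
  have hb2 : ∀ x : Fin n → ℤˣ, (fun x => -1 * f x) x = 1 ∨ (fun x => -1 * f x) x = -1 := by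
    intro x
    rcases hf x with h | h
    · right; show -1 * f x = -1; rw [h]; norm_num
    · left; show -1 * f x = 1; rw [h]; norm_num
  have hd2 : ∀ S : Finset (Fin n), d < S.card → fc (fun x => -1 * f x) S = 0 := by
    intro S hS
    rw [fc_smul, hdeg S hS]
    simp
  have e2 := wodd_ineq_aux d (fun x => -1 * f x) hb2 hd2 ρ h0 h1
  rw [wodd_neg, wodd'_neg, neg_sq] at e2
  rcases abs_cases (wodd' f ρ) with ⟨h, _⟩ | ⟨h, _⟩
  · rw [h]; exact e1
  · rw [h]; exact e2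

/-- the odd part of the bias polynomial is bounded by `1` on `[0,1]` -/
lemma wodd_abs_le_one (d : ℕ) (hd : 1 ≤ d) (f : (Fin n → ℤˣ) → ℝ)
    (hf : ∀ x, f x = 1 ∨ f x = -1)
    (hdeg : ∀ S : Finset (Fin n), d < S.card → fc f S = 0) (ρ : ℝ) (h0 : 0 ≤ ρ) (h1 : ρ ≤ 1) :
    |wodd f ρ| ≤ 1 := by
  have h := wodd_ineq d f hf hdeg ρ h0 h1
  have hnn : 0 ≤ (1 - ρ) * |wodd' f ρ| := mul_nonneg (by linarith) (abs_nonneg _)
  have hd' : (1 : ℝ) ≤ d := by exact_mod_cast hd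
  have hsq : (wodd f ρ) ^ 2 ≤ 1 := by
    by_contra hcon
    push Not at hcon
    nlinarith
  exact abs_le_one_iff_mul_self_le_one.mpr (by nlinarith)

end Vale.Agent.Lib.P047.helper21
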