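import Mathlib

namespace Vale.Agent.Lib.P047.helper21

open Finset

/-- the interpolation angles `(2j+1)π/(2D)` -/
noncomputable def phi (D j : ℕ) : ℝ := (2 * (j : ℝ) + 1) * Real.pi / (2 * D)

lemma sin_phi_pos (D j : ℕ) (hj : j < D) : 0 < Real.sin (phi D j) := by
  unfold phi
  have hDpos : (0 : ℝ) < D := by exact_mod_cast (lt_of_le_of_lt (Nat.zero_le j) hj)
  have hj' : (j : ℝ) + 1 ≤ D := by exact_mod_cast hj
  apply Real.sin_pos_of_pos_of_lt_pi
  · positivity
  · rw [div_lt_iff₀ (by positivity)]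
    nlinarith [Real.pi_pos]

lemma sum_cos_phi (D : ℕ) (m : ℕ) (hm0 : 0 < m) (hmD : m < D) :
    ∑ j ∈ range D, Real.cos (2 * (m : ℝ) * phi D j) = 0 := by
  have hDpos : (0 : ℝ) < D := by exact_mod_cast (lt_of_le_of_lt (Nat.zero_le m) hmD)
  have hmpos : (0 : ℝ) < m := by exact_mod_cast hm0
  have hmlt : (m : ℝ) < D := by exact_mod_cast hmD
  have hB : 0 < Real.sin ((m : ℝ) * Real.pi / D) := by
    apply Real.sin_pos_of_pos_of_lt_pi
    · positivity
    · rw [div_lt_iff₀ hDpos]
      nlinarith [Real.pi_pos]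
  set f : ℕ → ℝ := fun j => Real.sin (2 * (m : ℝ) * (j : ℝ) * Real.pi / D) with hf
  have tel : ∀ j : ℕ, 2 * Real.sin ((m : ℝ) * Real.pi / D) * Real.cos (2 * (m : ℝ) * phi D j)
      = f (j + 1) - f j := by
    intro j
    have e1 : 2 * (m : ℝ) * ((j + 1 : ℕ) : ℝ) * Real.pi / D
        = 2 * (m : ℝ) * phi D j + (m : ℝ) * Real.pi / D := by
      unfold phi
      push_cast
      field_simp
      ring
    have e2 : 2 * (m : ℝ) * (j : ℝ) * Real.pi / D
        = 2 * (m : ℝ) * phi D j - (m : ℝ) * Real.pi / D := by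
      unfold phi
      field_simp
      ring
    simp only [hf]
    rw [e1, e2, Real.sin_add, Real.sin_sub]
    ring
  have hsum : ∑ j ∈ range D,
      2 * Real.sin ((m : ℝ) * Real.pi / D) * Real.cos (2 * (m : ℝ) * phi D j) = 0 := by
    rw [sum_congr rfl (fun j _ => tel j), Finset.sum_range_sub]
    have h0 : f 0 = 0 := by simp [hf]
    have hD : f D = 0 := by
      simp only [hf]
      have : 2 * (m : ℝ) * (D : ℝ) * Real.pi / D = ((2 * m : ℕ) : ℝ) * Real.pi := by
        push_cast
        field_simp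
      rw [this, Real.sin_nat_mul_pi]
    rw [h0, hD, sub_zero]
  rw [← mul_sum] at hsum
  rcases mul_eq_zero.mp hsum with h | h
  · exfalso
    have : Real.sin ((m : ℝ) * Real.pi / D) = 0 := by linarith
    linarith
  · exact h

lemma sum_U (D t : ℕ) (ht : t < D) :
    ∑ j ∈ range D, Real.sin ((2 * (t : ℝ) + 1) * phi D j) / Real.sin (phi D j) = D := by
  induction t with
  | zero =>
    have h1 : ∀ j ∈ range D,
        Real.sin ((2 * ((0 : ℕ) : ℝ) + 1) * phi D j) / Real.sin (phi D j) = 1 := by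
      intro j hj
      have := sin_phi_pos D j (mem_range.mp hj)
      simp only [Nat.cast_zero, mul_zero, zero_add, one_mul]
      exact div_self this.ne'
    rw [sum_congr rfl h1]
    simp
  | succ t ih =>
    have ih' := ih (by omega)
    have hK := sum_cos_phi D (t + 1) (by omega) ht
    have step : ∀ j ∈ range D,
        Real.sin ((2 * ((t + 1 : ℕ) : ℝ) + 1) * phi D j) / Real.sin (phi D j)
        = Real.sin ((2 * (t : ℝ) + 1) * phi D j) / Real.sin (phi D j)
          + 2 * Real.cos (2 * ((t + 1 : ℕ) : ℝ) * phi D j) := by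
      intro j hj
      have hs := sin_phi_pos D j (mem_range.mp hj)
      have e1 : (2 * ((t + 1 : ℕ) : ℝ) + 1) * phi D j
          = 2 * ((t + 1 : ℕ) : ℝ) * phi D j + phi D j := by ring
      have e2 : (2 * (t : ℝ) + 1) * phi D j = 2 * ((t + 1 : ℕ) : ℝ) * phi D j - phi D j := by
        push_cast
        ring
      rw [e1, e2, Real.sin_add, Real.sin_sub]
      field_simp
      ring
    rw [sum_congr rfl step, sum_add_distrib, ih', ← mul_sum, hK]
    ring

lemma sin_sq_sub_sin_sq (A B : ℝ) :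
    Real.sin A ^ 2 - Real.sin B ^ 2 = Real.sin (A + B) * Real.sin (A - B) := by
  have hA := Real.sin_sq_add_cos_sq A
  have hB := Real.sin_sq_add_cos_sq B
  rw [Real.sin_add, Real.sin_sub]
  linear_combination (-(Real.sin A) ^ 2) * hB + (Real.sin B) ^ 2 * hA

lemma sum_Y (D a : ℕ) (ha : a ≤ D) :
    ∑ j ∈ range D, Real.sin ((a : ℝ) * phi D j) ^ 2 / Real.sin (phi D j) ^ 2 = a * D := by
  induction a with
  | zero => simp
  | succ a ih =>
    have ih' := ih (by omega)
    have hU := sum_U D a (by omega)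
    have step : ∀ j ∈ range D,
        Real.sin (((a + 1 : ℕ) : ℝ) * phi D j) ^ 2 / Real.sin (phi D j) ^ 2
        = Real.sin ((a : ℝ) * phi D j) ^ 2 / Real.sin (phi D j) ^ 2
          + Real.sin ((2 * (a : ℝ) + 1) * phi D j) / Real.sin (phi D j) := by
      intro j hj
      have hs := sin_phi_pos D j (mem_range.mp hj)
      have h1 : ((a + 1 : ℕ) : ℝ) * phi D j + (a : ℝ) * phi D j
          = (2 * (a : ℝ) + 1) * phi D j := by
        push_cast
        ring
      have h2 : ((a + 1 : ℕ) : ℝ) * phi D j - (a : ℝ) * phi D j = phi D j := by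
        push_cast
        ring
      have key := sin_sq_sub_sin_sq (((a + 1 : ℕ) : ℝ) * phi D j) ((a : ℝ) * phi D j)
      rw [h1, h2] at key
      have key2 : Real.sin (((a + 1 : ℕ) : ℝ) * phi D j) ^ 2
          = Real.sin ((a : ℝ) * phi D j) ^ 2
            + Real.sin ((2 * (a : ℝ) + 1) * phi D j) * Real.sin (phi D j) := by linarith
      rw [key2, add_div]
      congr 1
      field_simp
    rw [sum_congr rfl step, sum_add_distrib, ih', hU]
    push_cast
    ring

lemma sum_V (D : ℕ) (p : ℕ) : ∀ a : ℤ, (p : ℤ) < a → a + p < 2 * D → Even (a + p) →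
    ∑ j ∈ range D,
      Real.cos ((a : ℝ) * phi D j - (p : ℝ) * (Real.pi / 2)) * Real.sin (phi D j) ^ p = 0 := by
  induction p with
  | zero =>
    intro a ha0 haD hev
    obtain ⟨m, hm⟩ := hev
    have ha : a = 2 * m := by
      push_cast at hm
      omega
    have hm0 : 0 ≤ m := by
      push_cast at ha0
      omega
    lift m to ℕ using hm0
    have hK := sum_cos_phi D m (by push_cast at ha0; omega) (by push_cast at haD; omega)
    simp only [Nat.cast_zero, zero_mul, sub_zero, pow_zero, mul_one]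
    rw [ha]
    push_cast
    exact hK
  | succ p ih =>
    intro a ha0 haD hev
    have hev1 : Even (a - 1 + (p : ℤ)) := by
      have : a - 1 + (p : ℤ) = a + ((p + 1 : ℕ) : ℤ) - 2 := by
        push_cast
        ring
      rw [this]
      exact Even.sub hev even_two
    have hev2 : Even (a + 1 + (p : ℤ)) := by
      have : a + 1 + (p : ℤ) = a + ((p + 1 : ℕ) : ℤ) := by
        push_cast
        ring
      rw [this]
      exact hev
    have h1 := ih (a - 1) (by push_cast at ha0; omega) (by push_cast at haD; omega) hev1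
    have h2 := ih (a + 1) (by push_cast at ha0; omega) (by push_cast at haD; omega) hev2
    have step : ∀ j ∈ range D,
        Real.cos ((a : ℝ) * phi D j - ((p + 1 : ℕ) : ℝ) * (Real.pi / 2))
          * Real.sin (phi D j) ^ (p + 1)
        = (Real.cos (((a - 1 : ℤ) : ℝ) * phi D j - (p : ℝ) * (Real.pi / 2))
              * Real.sin (phi D j) ^ p
            - Real.cos (((a + 1 : ℤ) : ℝ) * phi D j - (p : ℝ) * (Real.pi / 2))
              * Real.sin (phi D j) ^ p) / 2 := by
      intro j _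
      have e0 : (a : ℝ) * phi D j - ((p + 1 : ℕ) : ℝ) * (Real.pi / 2)
          = ((a : ℝ) * phi D j - (p : ℝ) * (Real.pi / 2)) - Real.pi / 2 := by
        push_cast
        ring
      have e1 : ((a - 1 : ℤ) : ℝ) * phi D j - (p : ℝ) * (Real.pi / 2)
          = ((a : ℝ) * phi D j - (p : ℝ) * (Real.pi / 2)) - phi D j := by
        push_cast
        ring
      have e2 : ((a + 1 : ℤ) : ℝ) * phi D j - (p : ℝ) * (Real.pi / 2)
          = ((a : ℝ) * phi D j - (p : ℝ) * (Real.pi / 2)) + phi D j := by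
        push_cast
        ring
      rw [e0, e1, e2, Real.cos_sub_pi_div_two, Real.cos_sub, Real.cos_add, pow_succ]
      ring
    rw [sum_congr rfl step, ← sum_div, sum_sub_distrib, h1, h2]
    simp

lemma sin_D_phi (D j : ℕ) (hD : 0 < D) : Real.sin ((D : ℝ) * phi D j) = (-1) ^ j := by
  have hDne : (D : ℝ) ≠ 0 := by positivity
  have : (D : ℝ) * phi D j = (j : ℝ) * Real.pi + Real.pi / 2 := by
    unfold phi
    field_simp
  rw [this, Real.sin_add_pi_div_two, Real.cos_nat_mul_pi]

theorem riesz_node_pos (D j : ℕ) (hj : j < D) :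
    0 < Real.sin ((2 * (j : ℝ) + 1) * Real.pi / (2 * D)) :=
  sin_phi_pos D j hj

theorem riesz_weights (D : ℕ) (hD : Odd D) :
    (Finset.sum (Finset.range D) fun j =>
      1 / ((D : ℝ) * (Real.sin ((2 * (j : ℝ) + 1) * Real.pi / (2 * D))) ^ 2)) = (D : ℝ) := by
  have hDpos : 0 < D := hD.pos
  have hDne : (D : ℝ) ≠ 0 := by positivity
  have hY := sum_Y D D le_rfl
  have h1 : ∀ j ∈ range D, 1 / ((D : ℝ) * (Real.sin (phi D j)) ^ 2)
      = (1 / (D : ℝ)) * (Real.sin ((D : ℝ) * phi D j) ^ 2 / Real.sin (phi D j) ^ 2) := by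
    intro j hj
    have hs := sin_phi_pos D j (mem_range.mp hj)
    rw [sin_D_phi D j hDpos]
    have : ((-1 : ℝ) ^ j) ^ 2 = 1 := by
      rw [← pow_mul, mul_comm, pow_mul]
      norm_num
    rw [this]
    field_simp
  show ∑ j ∈ range D, 1 / ((D : ℝ) * (Real.sin (phi D j)) ^ 2) = (D : ℝ)
  rw [sum_congr rfl h1, ← mul_sum, hY]
  field_simp

theorem riesz_monomial (D : ℕ) (hD : Odd D) (k : ℕ) (hk : 2 * k + 1 ≤ D) :
    (Finset.sum (Finset.range D) fun j =>
      (-1 : ℝ) ^ j * (Real.sin ((2 * (j : ℝ) + 1) * Real.pi / (2 * D))) ^ (2 * k + 1)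
        / ((D : ℝ) * (Real.sin ((2 * (j : ℝ) + 1) * Real.pi / (2 * D))) ^ 2))
      = if k = 0 then 1 else 0 := by
  have hDpos : 0 < D := hD.pos
  have hDne : (D : ℝ) ≠ 0 := by positivity
  show ∑ j ∈ range D, (-1 : ℝ) ^ j * (Real.sin (phi D j)) ^ (2 * k + 1)
      / ((D : ℝ) * (Real.sin (phi D j)) ^ 2) = if k = 0 then 1 else 0
  rcases Nat.eq_zero_or_pos k with hk0 | hkpos
  · subst hk0
    simp only [if_true]
    obtain ⟨t, ht⟩ := hD
    have hU := sum_U D t (by omega)
    have h1 : ∀ j ∈ range D, (-1 : ℝ) ^ j * (Real.sin (phi D j)) ^ (2 * 0 + 1)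
        / ((D : ℝ) * (Real.sin (phi D j)) ^ 2)
        = (1 / (D : ℝ)) * (Real.sin ((2 * (t : ℝ) + 1) * phi D j) / Real.sin (phi D j)) := by
      intro j hj
      have hs := sin_phi_pos D j (mem_range.mp hj)
      have hc : (2 * (t : ℝ) + 1) = (D : ℝ) := by
        rw [ht]
        push_cast
        ring
      rw [hc, sin_D_phi D j hDpos, show 2 * 0 + 1 = 1 from rfl, pow_one]
      field_simp
    rw [sum_congr rfl h1, ← mul_sum, hU]
    field_simp
  · obtain ⟨k', rfl⟩ : ∃ k', k = k' + 1 := ⟨k - 1, by omega⟩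
    have hne : k' + 1 ≠ 0 := by omega
    simp only [hne, if_false]
    have hodd : Odd (2 * k' + 1) := ⟨k', rfl⟩
    have hV := sum_V D (2 * k' + 1) (D : ℤ) (by push_cast; omega) (by push_cast; omega)
      (by
        obtain ⟨t, ht⟩ := hD
        refine ⟨(t : ℤ) + k' + 1, ?_⟩
        rw [ht]
        push_cast
        ring)
    have hcos : ∀ j ∈ range D,
        Real.cos (((D : ℤ) : ℝ) * phi D j - ((2 * k' + 1 : ℕ) : ℝ) * (Real.pi / 2))
          * Real.sin (phi D j) ^ (2 * k' + 1)
        = (-1 : ℝ) ^ k' * ((-1 : ℝ) ^ j * Real.sin (phi D j) ^ (2 * k' + 1)) := by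
      intro j _
      have e : ((D : ℤ) : ℝ) * phi D j - ((2 * k' + 1 : ℕ) : ℝ) * (Real.pi / 2)
          = (j : ℝ) * Real.pi - (k' : ℝ) * Real.pi := by
        unfold phi
        push_cast
        field_simp
        ring
      rw [e, Real.cos_sub, Real.cos_nat_mul_pi, Real.cos_nat_mul_pi, Real.sin_nat_mul_pi,
        Real.sin_nat_mul_pi]
      ring
    rw [sum_congr rfl hcos, ← mul_sum] at hV
    have hpow : (-1 : ℝ) ^ k' ≠ 0 := pow_ne_zero _ (by norm_num)
    have hS : ∑ j ∈ range D, (-1 : ℝ) ^ j * Real.sin (phi D j) ^ (2 * k' + 1) = 0 := by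
      rcases mul_eq_zero.mp hV with h | h
      · exact absurd h hpow
      · exact h
    have h1 : ∀ j ∈ range D, (-1 : ℝ) ^ j * (Real.sin (phi D j)) ^ (2 * (k' + 1) + 1)
        / ((D : ℝ) * (Real.sin (phi D j)) ^ 2)
        = (1 / (D : ℝ)) * ((-1 : ℝ) ^ j * Real.sin (phi D j) ^ (2 * k' + 1)) := by
      intro j hj
      have hs := sin_phi_pos D j (mem_range.mp hj)
      have : 2 * (k' + 1) + 1 = (2 * k' + 1) + 2 := by ring
      rw [this, pow_add]
      field_simp
    rw [sum_congr rfl h1, ← mul_sum, hS, mul_zero]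

end Vale.Agent.Lib.P047.helper21
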