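import Mathlib
import Vale.Agent.Lib.P047.helper21.Odd
import Vale.Agent.Lib.P047.helper21.Numerics
import Vale.Agent.Lib.P047.helper21.Riesz
import Vale.Agent.Lib.P047.helper15.Ode

namespace Vale.Agent.Lib.P047.helper21

open Finset
open Vale.Agent.Lib.P047.helper15

variable {n : ℕ}

/-- the interpolation nodes `sin((2j+1)π/(2D))` -/
noncomputable def node (D j : ℕ) : ℝ := Real.sin ((2 * (j : ℝ) + 1) * Real.pi / (2 * D))

lemma node_monomial (D : ℕ) (hD : Odd D) (k : ℕ) (hk : 2 * k + 1 ≤ D) :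
    ∑ j ∈ range D, (-1 : ℝ) ^ j * (node D j) ^ (2 * k + 1) / ((D : ℝ) * (node D j) ^ 2)
      = if k = 0 then 1 else 0 :=
  riesz_monomial D hD k hk

lemma node_weights (D : ℕ) (hD : Odd D) :
    ∑ j ∈ range D, 1 / ((D : ℝ) * (node D j) ^ 2) = (D : ℝ) :=
  riesz_weights D hD

lemma node_pos (D j : ℕ) (hj : j < D) : 0 < node D j := riesz_node_pos D j hj

lemma node_le_one (D j : ℕ) : node D j ≤ 1 := Real.sin_le_one _

lemma node_zero (D : ℕ) : node D 0 = Real.sin (Real.pi / (2 * D)) := by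
  unfold node
  congr 1
  simp

lemma node_last (D : ℕ) (hD : 1 ≤ D) : node D (D - 1) = Real.sin (Real.pi / (2 * D)) := by
  unfold node
  rw [← Real.sin_pi_sub]
  congr 1
  have hD0 : (D : ℝ) ≠ 0 := by
    have : (1 : ℝ) ≤ D := by exact_mod_cast hD
    linarith
  rw [Nat.cast_sub hD]
  push_cast
  field_simp
  ring

lemma sum_card_one (F : Finset (Fin n) → ℝ) :
    ∑ T : Finset (Fin n), (if T.card = 1 then F T else 0) = ∑ i : Fin n, F {i} := by
  rw [← sum_filter]
  have : (univ.filter fun T : Finset (Fin n) => T.card = 1)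
      = univ.map ⟨fun i => ({i} : Finset (Fin n)), singleton_injective⟩ := by
    ext T
    simp only [mem_filter, mem_univ, true_and, mem_map, Function.Embedding.coeFn_mk]
    rw [card_eq_one]
    constructor
    · rintro ⟨a, rfl⟩; exact ⟨a, rfl⟩
    · rintro ⟨a, rfl⟩; exact ⟨a, rfl⟩
  rw [this, sum_map]
  rfl

/-- Riesz interpolation for the odd part of the bias polynomial: the level-one sum is an
alternating combination of its values at the nodes -/
theorem interp (D : ℕ) (hD : Odd D) (f : (Fin n → ℤˣ) → ℝ)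
    (hdeg : ∀ S : Finset (Fin n), D < S.card → Odd S.card → fc f S = 0) :
    ∑ j ∈ range D, (-1 : ℝ) ^ j * wodd f (node D j) / ((D : ℝ) * (node D j) ^ 2)
      = ∑ i : Fin n, fc f {i} := by
  have key : ∀ T : Finset (Fin n),
      ∑ j ∈ range D, (-1 : ℝ) ^ j * (if Odd T.card then fc f T * (node D j) ^ T.card else 0)
          / ((D : ℝ) * (node D j) ^ 2)
        = if T.card = 1 then fc f T else 0 := by
    intro T
    by_cases hT : Odd T.card
    · simp only [hT, if_true]
      obtain ⟨k, hk⟩ := hT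
      by_cases hle : T.card ≤ D
      · have hm := node_monomial D hD k (by omega)
        have h1 : ∀ j ∈ range D,
            (-1 : ℝ) ^ j * (fc f T * (node D j) ^ T.card) / ((D : ℝ) * (node D j) ^ 2)
            = fc f T * ((-1 : ℝ) ^ j * (node D j) ^ (2 * k + 1) / ((D : ℝ) * (node D j) ^ 2)) := by
          intro j _
          rw [hk]; ring
        rw [sum_congr rfl h1, ← mul_sum, hm]
        by_cases hk0 : k = 0
        · have : T.card = 1 := by omega
          simp [hk0, this]
        · have : T.card ≠ 1 := by omega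
          simp [hk0, this]
      · have hz : fc f T = 0 := hdeg T (by omega) ⟨k, hk⟩
        have hD1 : 1 ≤ D := hD.pos
        have : T.card ≠ 1 := by omega
        simp [hz, this]
    · have : T.card ≠ 1 := by
        intro h; apply hT; rw [h]; exact odd_one
      simp [hT, this]
  have h2 : ∀ j ∈ range D, (-1 : ℝ) ^ j * wodd f (node D j) / ((D : ℝ) * (node D j) ^ 2)
      = ∑ T : Finset (Fin n),
          (-1 : ℝ) ^ j * (if Odd T.card then fc f T * (node D j) ^ T.card else 0)
            / ((D : ℝ) * (node D j) ^ 2) := by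
    intro j _
    unfold wodd
    rw [mul_sum, sum_div]
  rw [sum_congr rfl h2, sum_comm, sum_congr rfl (fun T _ => key T), sum_card_one]

lemma interp_term_le (D : ℕ) (w : ℝ) (j : ℕ) (hj : j < D) :
    (-1 : ℝ) ^ j * w / ((D : ℝ) * (node D j) ^ 2)
      ≤ 1 / ((D : ℝ) * (node D j) ^ 2) - (1 - |w|) / ((D : ℝ) * (node D j) ^ 2) := by
  have hDpos : (0 : ℝ) < D := by
    have : 0 < D := by omega
    exact_mod_cast this
  have hpos : 0 < (D : ℝ) * (node D j) ^ 2 := mul_pos hDpos (pow_pos (node_pos D j hj) 2)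
  have h1 : (-1 : ℝ) ^ j * w ≤ |w| := by
    calc (-1 : ℝ) ^ j * w ≤ |(-1 : ℝ) ^ j * w| := le_abs_self _
      _ = |w| := by rw [abs_mul, abs_pow, abs_neg, abs_one, one_pow, one_mul]
  have h2 : 1 / ((D : ℝ) * (node D j) ^ 2) - (1 - |w|) / ((D : ℝ) * (node D j) ^ 2)
      = |w| / ((D : ℝ) * (node D j) ^ 2) := by ring
  rw [h2]
  exact div_le_div_of_nonneg_right h1 hpos.le

lemma odd_deg_aux (d D : ℕ) (hD : Odd D) (hdD : d ≤ D + 1) (f : (Fin n → ℤˣ) → ℝ)
    (hdeg : ∀ S : Finset (Fin n), d < S.card → fc f S = 0) :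
    ∀ S : Finset (Fin n), D < S.card → Odd S.card → fc f S = 0 := by
  intro S hS hodd
  apply hdeg
  obtain ⟨a, ha⟩ := hD
  obtain ⟨b, hb⟩ := hodd
  omega

/-- Bernstein-type bound: the level-one sum is at most `D` when `deg f ≤ D + 1`, `D` odd -/
theorem level1_le_D (d D : ℕ) (hD : Odd D) (hd1 : 1 ≤ d) (hdD : d ≤ D + 1)
    (f : (Fin n → ℤˣ) → ℝ) (hf : ∀ x, f x = 1 ∨ f x = -1)
    (hdeg : ∀ S : Finset (Fin n), d < S.card → fc f S = 0) :
    ∑ i : Fin n, fc f {i} ≤ D := by
  rw [← interp D hD f (odd_deg_aux d D hD hdD f hdeg)]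
  refine le_trans (sum_le_sum ?_) (le_of_eq (node_weights D hD))
  intro j hj
  have hj' : j < D := mem_range.mp hj
  have hDpos : (0 : ℝ) < D := by
    have : 0 < D := by omega
    exact_mod_cast this
  have hpos : 0 < (D : ℝ) * (node D j) ^ 2 := mul_pos hDpos (pow_pos (node_pos D j hj') 2)
  have hw := wodd_abs_le_one d hd1 f hf hdeg (node D j) (node_pos D j hj').le (node_le_one D j)
  have h := interp_term_le D (wodd f (node D j)) j hj'
  have h3 : 0 ≤ (1 - |wodd f (node D j)|) / ((D : ℝ) * (node D j) ^ 2) :=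
    div_nonneg (by linarith) hpos.le
  linarith

/-- the level-one sum with the gain at the two nodes nearest the origin -/
theorem level1_gain_aux (d D : ℕ) (hD : Odd D) (hD3 : 3 ≤ D) (hd1 : 1 ≤ d) (hdD : d ≤ D + 1)
    (f : (Fin n → ℤˣ) → ℝ) (hf : ∀ x, f x = 1 ∨ f x = -1)
    (hdeg : ∀ S : Finset (Fin n), d < S.card → fc f S = 0) :
    ∑ i : Fin n, fc f {i} ≤ D - 2 * ((1 - |wodd f (Real.sin (Real.pi / (2 * D)))|)
      / ((D : ℝ) * (Real.sin (Real.pi / (2 * D))) ^ 2)) := by
  rw [← interp D hD f (odd_deg_aux d D hD hdD f hdeg)]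
  have hterm : ∀ j ∈ range D, (-1 : ℝ) ^ j * wodd f (node D j) / ((D : ℝ) * (node D j) ^ 2)
      ≤ 1 / ((D : ℝ) * (node D j) ^ 2)
        - (1 - |wodd f (node D j)|) / ((D : ℝ) * (node D j) ^ 2) :=
    fun j hj => interp_term_le D (wodd f (node D j)) j (mem_range.mp hj)
  have hsum := sum_le_sum hterm
  rw [sum_sub_distrib, node_weights D hD] at hsum
  have hnn : ∀ j ∈ range D, 0 ≤ (1 - |wodd f (node D j)|) / ((D : ℝ) * (node D j) ^ 2) := by
    intro j hj
    have hj' : j < D := mem_range.mp hj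
    have hDpos : (0 : ℝ) < D := by
      have : 0 < D := by omega
      exact_mod_cast this
    have hpos : 0 < (D : ℝ) * (node D j) ^ 2 := mul_pos hDpos (pow_pos (node_pos D j hj') 2)
    have hw := wodd_abs_le_one d hd1 f hf hdeg (node D j) (node_pos D j hj').le (node_le_one D j)
    exact div_nonneg (by linarith) hpos.le
  have h2 := add_le_sum hnn (i := 0) (j := D - 1) (mem_range.mpr (by omega))
    (mem_range.mpr (by omega)) (by omega)
  rw [node_zero, node_last D (by omega)] at h2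
  linarith

/-- the ODE comparison bound for the odd part of the bias polynomial -/
theorem wodd_tanh (d : ℕ) (f : (Fin n → ℤˣ) → ℝ) (hf : ∀ x, f x = 1 ∨ f x = -1)
    (hdeg : ∀ S : Finset (Fin n), d < S.card → fc f S = 0) (x : ℝ) (hx0 : 0 ≤ x) (hx1 : x < 1) :
    |wodd f x| ≤ (1 - (1 - x) ^ (2 * d)) / (1 + (1 - x) ^ (2 * d)) :=
  ode_tanh_bound d (wodd f) (wodd' f) (wodd_hasDerivAt f) (wodd_zero f)
    (fun y hy0 hy1 => wodd_ineq d f hf hdeg y hy0 hy1.le) x hx0 hx1

lemma sin_node_bounds (D : ℕ) (hD3 : 3 ≤ D) :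
    0 < Real.sin (Real.pi / (2 * D)) ∧ Real.sin (Real.pi / (2 * D)) < 1 := by
  have hD' : (3 : ℝ) ≤ D := by exact_mod_cast hD3
  have hpi := Real.pi_pos
  have hx0 : 0 < Real.pi / (2 * D) := by positivity
  have hx1 : Real.pi / (2 * D) < 1 := by
    rw [div_lt_one (by positivity)]
    have := Real.pi_lt_d2
    linarith
  constructor
  · apply Real.sin_pos_of_pos_of_lt_pi hx0
    have := Real.pi_gt_three
    linarith
  · exact lt_trans (Real.sin_lt hx0) hx1

/-- the level-one sum is at most `D - gain d D` -/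
theorem level1_gain (d D : ℕ) (hD : Odd D) (hD3 : 3 ≤ D) (hd1 : 1 ≤ d) (hdD : d ≤ D + 1)
    (f : (Fin n → ℤˣ) → ℝ) (hf : ∀ x, f x = 1 ∨ f x = -1)
    (hdeg : ∀ S : Finset (Fin n), d < S.card → fc f S = 0) :
    ∑ i : Fin n, fc f {i} ≤ D - gain d D := by
  have h := level1_gain_aux d D hD hD3 hd1 hdD f hf hdeg
  obtain ⟨hs0, hs1⟩ := sin_node_bounds D hD3
  have ht := wodd_tanh d f hf hdeg (Real.sin (Real.pi / (2 * D))) hs0.le hs1
  unfold gain
  set s := Real.sin (Real.pi / (2 * D)) with hs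
  set q := (1 - s) ^ (2 * d) with hq
  have hq0 : 0 ≤ q := pow_nonneg (by linarith) _
  have hDpos : (0 : ℝ) < D := by
    have : 0 < D := by omega
    exact_mod_cast this
  have hpos : 0 < (D : ℝ) * s ^ 2 := mul_pos hDpos (pow_pos hs0 2)
  have h1 : 2 * q / (1 + q) ≤ 1 - |wodd f s| := by
    have : 1 - (1 - q) / (1 + q) = 2 * q / (1 + q) := by
      field_simp
      ring
    linarith
  have h2 : 2 * q / (1 + q) / ((D : ℝ) * s ^ 2) ≤ (1 - |wodd f s|) / ((D : ℝ) * s ^ 2) :=
    div_le_div_of_nonneg_right h1 hpos.le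
  linarith

/-- the constant-factor bound for the signed level-one sum -/
theorem level1_signed (d : ℕ) (hd2 : 2 ≤ d) (f : (Fin n → ℤˣ) → ℝ)
    (hf : ∀ x, f x = 1 ∨ f x = -1)
    (hdeg : ∀ S : Finset (Fin n), d < S.card → fc f S = 0) :
    ∑ i : Fin n, fc f {i} ≤ 39 / 40 * (d : ℝ)
      ∧ (Even d → ∑ i : Fin n, fc f {i} ≤ (d : ℝ) - 1) := by
  have hd2' : (2 : ℝ) ≤ d := by exact_mod_cast hd2
  rcases Nat.even_or_odd d with he | ho
  · have hDodd : Odd (d - 1) := by
      obtain ⟨a, ha⟩ := he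
      exact ⟨a - 1, by omega⟩
    have hle := level1_le_D d (d - 1) hDodd (by omega) (by omega) f hf hdeg
    have hcast : ((d - 1 : ℕ) : ℝ) = (d : ℝ) - 1 := by
      rw [Nat.cast_sub (by omega)]
      simp
    rw [hcast] at hle
    refine ⟨?_, fun _ => hle⟩
    by_cases h40 : d ≤ 40
    · have : (d : ℝ) ≤ 40 := by exact_mod_cast h40
      linarith
    · have hg := level1_gain d (d - 1) hDodd (by omega) (by omega) (by omega) f hf hdeg
      have hn := gain_even (d - 1) (by omega)
      have hdd : d - 1 + 1 = d := by omega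
      rw [hdd] at hn
      rw [hcast] at hg hn
      linarith
  · refine ⟨?_, fun he => absurd he (Nat.not_even_iff_odd.mpr ho)⟩
    by_cases h3 : d = 3
    · subst h3
      have hg := level1_gain 3 3 ho (by omega) (by omega) (by omega) f hf hdeg
      rw [gain_three] at hg
      push_cast at hg ⊢
      linarith
    · have h5 : 5 ≤ d := by
        obtain ⟨a, ha⟩ := ho
        omega
      have hg := level1_gain d d ho (by omega) (by omega) (by omega) f hf hdeg
      have hn := gain_odd d h5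
      linarith

/-- the asymptotically better constant for the signed level-one sum -/
theorem level1_signed_large (d : ℕ) (hd40 : 40 ≤ d) (f : (Fin n → ℤˣ) → ℝ)
    (hf : ∀ x, f x = 1 ∨ f x = -1)
    (hdeg : ∀ S : Finset (Fin n), d < S.card → fc f S = 0) :
    ∑ i : Fin n, fc f {i} ≤ 15 / 16 * (d : ℝ) := by
  have hd40' : (40 : ℝ) ≤ d := by exact_mod_cast hd40
  rcases Nat.even_or_odd d with he | ho
  · have hDodd : Odd (d - 1) := by
      obtain ⟨a, ha⟩ := he
      exact ⟨a - 1, by omega⟩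
    have hcast : ((d - 1 : ℕ) : ℝ) = (d : ℝ) - 1 := by
      rw [Nat.cast_sub (by omega)]
      simp
    have hdd : d - 1 + 1 = d := by omega
    have hg := level1_gain d (d - 1) hDodd (by omega) (by omega) (by omega) f hf hdeg
    by_cases h100 : d ≤ 101
    · have h100' : (d : ℝ) ≤ 101 := by exact_mod_cast h100
      have hn := gain_even16a (d - 1) (by omega)
      rw [hdd] at hn
      rw [hcast] at hg hn
      linarith
    · have hn := gain_even16b (d - 1) (by omega)
      rw [hdd] at hn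
      rw [hcast] at hg hn
      linarith
  · have hg := level1_gain d d ho (by omega) (by omega) (by omega) f hf hdeg
    have hn := gain_odd16 d (by omega)
    linarith

/-- the constant-factor bounds for the level-one sum with absolute values -/
theorem level1_abs (d : ℕ) (hd2 : 2 ≤ d) (f : (Fin n → ℤˣ) → ℝ)
    (hf : ∀ x, f x = 1 ∨ f x = -1)
    (hdeg : ∀ S : Finset (Fin n), d < S.card → fc f S = 0) :
    ∑ i : Fin n, |fc f {i}| ≤ 39 / 40 * (d : ℝ)
      ∧ (Even d → ∑ i : Fin n, |fc f {i}| ≤ (d : ℝ) - 1)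
      ∧ (40 ≤ d → ∑ i : Fin n, |fc f {i}| ≤ 15 / 16 * (d : ℝ)) := by
  set ε : Fin n → ℤˣ := fun i => if 0 ≤ fc f {i} then 1 else -1 with hε
  have hb : ∀ x : Fin n → ℤˣ, (fun x => f (ε * x)) x = 1 ∨ (fun x => f (ε * x)) x = -1 :=
    fun x => hf (ε * x)
  have hd' : ∀ S : Finset (Fin n), d < S.card → fc (fun x => f (ε * x)) S = 0 := by
    intro S hS
    rw [fc_shift, hdeg S hS, mul_zero]
  have hcoef : ∀ i : Fin n, fc (fun x => f (ε * x)) {i} = |fc f {i}| := by
    intro i
    rw [fc_shift]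
    unfold chi
    rw [prod_singleton]
    by_cases h : 0 ≤ fc f {i}
    · simp [hε, h, abs_of_nonneg h]
    · have h' : fc f {i} < 0 := not_le.mp h
      simp [hε, h, abs_of_neg h']
  have h1 := level1_signed d hd2 (fun x => f (ε * x)) hb hd'
  have h2 := fun h40 : 40 ≤ d => level1_signed_large d h40 (fun x => f (ε * x)) hb hd'
  simp only [hcoef] at h1 h2
  exact ⟨h1.1, h1.2, h2⟩

end Vale.Agent.Lib.P047.helper21
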